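import Vale.Agent.P318.Defs

namespace Vale.Agent.P318

open Finset

variable {n : ℕ}

lemma IsNegType.nonneg {d : Fin n → Fin n → ℝ} (h : IsNegType d) (i j : Fin n) : 0 ≤ d i j := by
  obtain ⟨⟨x, hx⟩, _⟩ := h
  rw [hx]; positivity

lemma IsNegType.symm {d : Fin n → Fin n → ℝ} (h : IsNegType d) (i j : Fin n) : d i j = d j i := by
  obtain ⟨⟨x, hx⟩, _⟩ := h
  rw [hx, hx, norm_sub_rev]

lemma IsNegType.diag {d : Fin n → Fin n → ℝ} (h : IsNegType d) (i : Fin n) : d i i = 0 := by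
  obtain ⟨⟨x, hx⟩, _⟩ := h
  rw [hx]; simp

lemma IsNegType.tri {d : Fin n → Fin n → ℝ} (h : IsNegType d) (i j k : Fin n) :
    d i k ≤ d i j + d j k := h.2 i j k

lemma pairSum_nonneg {f : Fin n → Fin n → ℝ} (h : ∀ i j, 0 ≤ f i j) : 0 ≤ pairSum f := by
  unfold pairSum
  refine Finset.sum_nonneg fun i _ => Finset.sum_nonneg fun j _ => ?_
  split_ifs
  · exact h i j
  · exact le_rfl

lemma pairSum_le {f g : Fin n → Fin n → ℝ} (h : ∀ i j, f i j ≤ g i j) : pairSum f ≤ pairSum g := by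
  unfold pairSum
  refine Finset.sum_le_sum fun i _ => Finset.sum_le_sum fun j _ => ?_
  split_ifs
  · exact h i j
  · exact le_rfl

lemma pairSum_add (f g : Fin n → Fin n → ℝ) :
    pairSum (fun i j => f i j + g i j) = pairSum f + pairSum g := by
  unfold pairSum
  rw [← Finset.sum_add_distrib]
  refine Finset.sum_congr rfl fun i _ => ?_
  rw [← Finset.sum_add_distrib]
  refine Finset.sum_congr rfl fun j _ => ?_
  split_ifs <;> simp

lemma pairSum_sub (f g : Fin n → Fin n → ℝ) :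
    pairSum (fun i j => f i j - g i j) = pairSum f - pairSum g := by
  unfold pairSum
  rw [← Finset.sum_sub_distrib]
  refine Finset.sum_congr rfl fun i _ => ?_
  rw [← Finset.sum_sub_distrib]
  refine Finset.sum_congr rfl fun j _ => ?_
  split_ifs <;> simp

lemma pairSum_smul (a : ℝ) (f : Fin n → Fin n → ℝ) :
    pairSum (fun i j => a * f i j) = a * pairSum f := by
  unfold pairSum
  rw [Finset.mul_sum]
  refine Finset.sum_congr rfl fun i _ => ?_
  rw [Finset.mul_sum]
  refine Finset.sum_congr rfl fun j _ => ?_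
  split_ifs <;> simp

lemma cutRatio_nonneg {c : Fin n → Fin n → ℝ} (hc : IsCap c) (S : Finset (Fin n)) :
    0 ≤ cutRatio c S := by
  unfold cutRatio
  refine div_nonneg (Finset.sum_nonneg fun i _ => Finset.sum_nonneg fun j _ => hc.nonneg i j) ?_
  positivity

lemma phiVal_le_cutRatio {c : Fin n → Fin n → ℝ} (hc : IsCap c) {S : Finset (Fin n)}
    (h1 : S.Nonempty) (h2 : S ≠ univ) : phiVal c ≤ cutRatio c S := by
  unfold phiVal
  refine csInf_le ⟨0, ?_⟩ ⟨S, h1, h2, rfl⟩
  rintro r ⟨T, _, _, rfl⟩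
  exact cutRatio_nonneg hc T

lemma le_phiVal (hn : 2 ≤ n) {c : Fin n → Fin n → ℝ} {r : ℝ}
    (h : ∀ S : Finset (Fin n), S.Nonempty → S ≠ univ → r ≤ cutRatio c S) : r ≤ phiVal c := by
  unfold phiVal
  refine le_csInf ?_ ?_
  · refine ⟨_, {⟨0, by omega⟩}, by simp, ?_, rfl⟩
    intro hh
    have := congrArg Finset.card hh
    simp at this
    omega
  · rintro _ ⟨S, h1, h2, rfl⟩
    exact h S h1 h2

/-- capacity across a cut is at least `Φ(c) |S| |Sᶜ|`. -/
lemma phiVal_mul_le {c : Fin n → Fin n → ℝ} (hc : IsCap c) {S : Finset (Fin n)}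
    (h1 : S.Nonempty) (h2 : S ≠ univ) :
    phiVal c * ((S.card : ℝ) * (Sᶜ.card : ℝ)) ≤ ∑ i ∈ S, ∑ j ∈ Sᶜ, c i j := by
  have h := phiVal_le_cutRatio hc h1 h2
  unfold cutRatio at h
  have hS : 0 < (S.card : ℝ) := by exact_mod_cast h1.card_pos
  have hSc : 0 < (Sᶜ.card : ℝ) := by
    have : Sᶜ.Nonempty := by
      rw [Finset.nonempty_iff_ne_empty]
      intro hh
      exact h2 (Finset.compl_eq_empty_iff S |>.1 hh)
    exact_mod_cast this.card_pos
  rwa [le_div_iff₀ (by positivity)] at h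

lemma glVal_le {c : Fin n → Fin n → ℝ} (hc : IsCap c) {d : Fin n → Fin n → ℝ}
    (hd : IsNegType d) (h1 : pairSum d = 1) : glVal c ≤ pairSum (fun i j => c i j * d i j) := by
  unfold glVal
  refine csInf_le ⟨0, ?_⟩ ⟨d, hd, h1, rfl⟩
  rintro r ⟨e, he, _, rfl⟩
  exact pairSum_nonneg fun i j => mul_nonneg (hc.nonneg i j) (he.nonneg i j)

lemma IsNegType.smul {d : Fin n → Fin n → ℝ} (hd : IsNegType d) {a : ℝ} (ha : 0 ≤ a) :
    IsNegType (fun i j => a * d i j) := by
  obtain ⟨⟨x, hx⟩, ht⟩ := hd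
  refine ⟨⟨fun i => Real.sqrt a • x i, fun i j => ?_⟩, fun i j k => ?_⟩
  · show a * d i j = _
    rw [← smul_sub, norm_smul, mul_pow, hx, Real.norm_eq_abs, sq_abs, Real.sq_sqrt ha]
  · show a * d i k ≤ a * d i j + a * d j k
    have := ht i j k
    nlinarith

/-- Any negative-type semimetric with positive total gives an upper bound for `GL(c)`. -/
lemma glVal_le_div {c : Fin n → Fin n → ℝ} (hc : IsCap c) {d : Fin n → Fin n → ℝ}
    (hd : IsNegType d) (h1 : 0 < pairSum d) :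
    glVal c ≤ pairSum (fun i j => c i j * d i j) / pairSum d := by
  have h2 : IsNegType (fun i j => (pairSum d)⁻¹ * d i j) := hd.smul (by positivity)
  have h3 : pairSum (fun i j => (pairSum d)⁻¹ * d i j) = 1 := by
    rw [pairSum_smul]; field_simp
  have h4 := glVal_le hc h2 h3
  have h5 : pairSum (fun i j => c i j * ((pairSum d)⁻¹ * d i j))
      = pairSum (fun i j => c i j * d i j) / pairSum d := by
    have : (fun i j => c i j * ((pairSum d)⁻¹ * d i j))
        = fun i j => (pairSum d)⁻¹ * (c i j * d i j) := by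
      funext i j; ring
    rw [this, pairSum_smul]; field_simp
  rwa [h5] at h4

lemma le_glVal {c : Fin n → Fin n → ℝ} {r : ℝ}
    (hne : ∃ d : Fin n → Fin n → ℝ, IsNegType d ∧ pairSum d = 1)
    (h : ∀ d : Fin n → Fin n → ℝ, IsNegType d → pairSum d = 1 →
      r ≤ pairSum (fun i j => c i j * d i j)) : r ≤ glVal c := by
  unfold glVal
  refine le_csInf ?_ ?_
  · obtain ⟨d, hd, h1⟩ := hne
    exact ⟨_, d, hd, h1, rfl⟩
  · rintro _ ⟨d, hd, h1, rfl⟩
    exact h d hd h1

end Vale.Agent.P318
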