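import Mathlib

/-!
# P318: uniform sparsest cut and the Goemans-Linial relaxation: definitions
-/

namespace Vale.Agent.P318

open Finset

/-- Symmetric nonnegative capacities with zero diagonal on the vertex set `Fin n`. -/
structure IsCap {n : ℕ} (c : Fin n → Fin n → ℝ) : Prop where
  symm : ∀ i j, c i j = c j i
  nonneg : ∀ i j, 0 ≤ c i j
  diag : ∀ i, c i i = 0

/-- Sum of `f i j` over the unordered pairs `i < j`. -/
noncomputable def pairSum {n : ℕ} (f : Fin n → Fin n → ℝ) : ℝ :=
  ∑ i, ∑ j, if i < j then f i j else 0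

/-- The ratio of the cut `(S, Sᶜ)`: capacity across the cut divided by `|S| (n - |S|)`. -/
noncomputable def cutRatio {n : ℕ} (c : Fin n → Fin n → ℝ) (S : Finset (Fin n)) : ℝ :=
  (∑ i ∈ S, ∑ j ∈ (S)ᶜ, c i j) / ((S.card : ℝ) * (((S)ᶜ).card : ℝ))

/-- The value `Φ(c)` of uniform sparsest cut: the least ratio of a nonempty proper subset. -/
noncomputable def phiVal {n : ℕ} (c : Fin n → Fin n → ℝ) : ℝ :=
  sInf {r | ∃ S : Finset (Fin n), S.Nonempty ∧ S ≠ univ ∧ r = cutRatio c S}

/-- Negative-type semimetrics on `Fin n`: squared Euclidean distances of vectors in `ℝ^n`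
that satisfy all triangle inequalities. -/
def IsNegType {n : ℕ} (d : Fin n → Fin n → ℝ) : Prop :=
  (∃ x : Fin n → EuclideanSpace ℝ (Fin n), ∀ i j, d i j = ‖x i - x j‖ ^ 2) ∧
    ∀ i j k, d i k ≤ d i j + d j k

/-- The value `GL(c)` of the Goemans-Linial relaxation. -/
noncomputable def glVal {n : ℕ} (c : Fin n → Fin n → ℝ) : ℝ :=
  sInf {r | ∃ d : Fin n → Fin n → ℝ, IsNegType d ∧ pairSum d = 1 ∧
    r = pairSum (fun i j => c i j * d i j)}

/-- The integrality gap `g(n)` for uniform demands, as an extended nonnegative real. -/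
noncomputable def gap (n : ℕ) : ENNReal :=
  ⨆ c : {c : Fin n → Fin n → ℝ // IsCap c ∧ 0 < glVal c}, ENNReal.ofReal (phiVal c.1 / glVal c.1)

end Vale.Agent.P318
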