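import Vale.Agent.P318.Hyper

namespace Vale.Agent.P318

open Finset

lemma sum_fin_extend {m n : ℕ} (h : m ≤ n) (f : Fin m → ℝ) :
    ∑ k : Fin n, (if hk : k.val < m then f ⟨k.val, hk⟩ else 0) = ∑ k : Fin m, f k := by
  obtain ⟨r, rfl⟩ := Nat.exists_eq_add_of_le h
  rw [Fin.sum_univ_add]
  simp

lemma sum_fin_extend_int {m n : ℕ} (h : m ≤ n) (f : Fin m → ℤ) :
    ∑ k : Fin n, (if hk : k.val < m then f ⟨k.val, hk⟩ else 0) = ∑ k : Fin m, f k := by
  obtain ⟨r, rfl⟩ := Nat.exists_eq_add_of_le h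
  rw [Fin.sum_univ_add]
  simp

lemma pairSum_extend {m n : ℕ} (h : m ≤ n) (G : Fin m → Fin m → ℝ) :
    pairSum (fun i j : Fin n => if hi : i.val < m then
      (if hj : j.val < m then G ⟨i.val, hi⟩ ⟨j.val, hj⟩ else 0) else 0) = pairSum G := by
  unfold pairSum
  rw [← sum_fin_extend h (fun i => ∑ j, if i < j then G i j else 0)]
  refine Finset.sum_congr rfl fun i _ => ?_
  by_cases hi : i.val < m
  · rw [dif_pos hi, ← sum_fin_extend h]
    refine Finset.sum_congr rfl fun j _ => ?_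
    by_cases hj : j.val < m
    · simp only [dif_pos hi, dif_pos hj]
      rfl
    · simp [dif_neg hj]
  · simp [dif_neg hi]

/-- zero padding of a vector. -/
noncomputable def pad (m n : ℕ) (v : EuclideanSpace ℝ (Fin m)) : EuclideanSpace ℝ (Fin n) :=
  WithLp.toLp 2 (fun k => if hk : k.val < m then v ⟨k.val, hk⟩ else 0)

lemma norm_pad_sub {m n : ℕ} (h : m ≤ n) (v w : EuclideanSpace ℝ (Fin m)) :
    ‖pad m n v - pad m n w‖ ^ 2 = ‖v - w‖ ^ 2 := by
  rw [EuclideanSpace.real_norm_sq_eq, EuclideanSpace.real_norm_sq_eq,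
    ← sum_fin_extend h (fun k => (v - w).ofLp k ^ 2)]
  refine Finset.sum_congr rfl fun k _ => ?_
  by_cases hk : k.val < m
  · simp [pad, hk]
  · simp [pad, hk]

lemma isNegType_of_lowdim {m n : ℕ} (h : m ≤ n) {d : Fin n → Fin n → ℝ}
    (y : Fin n → EuclideanSpace ℝ (Fin m)) (hy : ∀ i j, d i j = ‖y i - y j‖ ^ 2)
    (ht : ∀ i j k, d i k ≤ d i j + d j k) : IsNegType d :=
  ⟨⟨fun i => pad m n (y i), fun i j => by rw [norm_pad_sub h, hy]⟩, ht⟩

/-- integer coordinates of the five points. -/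
def q5 : Fin 5 → Fin 3 → ℤ := ![![0, 0, 0], ![2, 2, 2], ![3, 0, 0], ![0, 3, 0], ![0, 0, 3]]

/-- squared distances of the five points. -/
def D5 (k l : Fin 5) : ℤ := ∑ t, (q5 k t - q5 l t) ^ 2

/-- the pentagonal vector. -/
def b5 : Fin 5 → ℤ := ![-1, -1, 1, 1, 1]

lemma D5_tri : ∀ a b c : Fin 5, D5 a c ≤ D5 a b + D5 b c := by decide

lemma b5_abs : ∀ a : Fin 5, |b5 a| ≤ 1 := by decide

lemma b5_sum : ∑ a, b5 a = 1 := by decide

/-- the five points as Euclidean vectors. -/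
noncomputable def p5 (k : Fin 5) : EuclideanSpace ℝ (Fin 3) := WithLp.toLp 2 (fun t => (q5 k t : ℝ))

lemma D5_eq (k l : Fin 5) : (D5 k l : ℝ) = ‖p5 k - p5 l‖ ^ 2 := by
  rw [EuclideanSpace.real_norm_sq_eq]
  simp [D5, p5]

variable {n : ℕ}

/-- the first five vertices go to the five points, all others to the point `0`. -/
def t5 (i : Fin n) : Fin 5 := if h : i.val < 5 then ⟨i.val, h⟩ else 0

/-- the semimetric on `Fin n`. -/
noncomputable def dn (i j : Fin n) : ℝ := (D5 (t5 i) (t5 j) : ℝ)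

/-- the vector `b` on `Fin n`. -/
def bn (i : Fin n) : ℤ := if h : i.val < 5 then b5 ⟨i.val, h⟩ else 0

lemma dn_isNegType (hn : 5 ≤ n) : IsNegType (dn : Fin n → Fin n → ℝ) := by
  refine isNegType_of_lowdim (m := 3) (by omega) (fun i => p5 (t5 i)) (fun i j => D5_eq _ _) ?_
  intro i j k
  unfold dn
  exact_mod_cast D5_tri _ _ _

lemma bn_abs (i : Fin n) : |bn i| ≤ 1 := by
  unfold bn
  split_ifs
  · exact b5_abs _
  · simp

lemma bn_sum (hn : 5 ≤ n) : ∑ i : Fin n, bn i = 1 := by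
  unfold bn
  rw [sum_fin_extend_int hn, b5_sum]

lemma pairSum5_val : pairSum (fun k l : Fin 5 => (b5 k : ℝ) * (b5 l : ℝ) * (D5 k l : ℝ)) = 12 := by
  have h : (∑ k : Fin 5, ∑ l : Fin 5, if k < l then b5 k * b5 l * D5 k l else 0) = 12 := by decide
  have h2 : ((∑ k : Fin 5, ∑ l : Fin 5, if k < l then b5 k * b5 l * D5 k l else 0 : ℤ) : ℝ) = 12 := by
    rw [h]; norm_num
  rw [← h2]
  unfold pairSum
  push_cast
  rfl

lemma pairSum_bn_dn (hn : 5 ≤ n) :
    pairSum (fun i j : Fin n => (bn i : ℝ) * (bn j : ℝ) * dn i j) = 12 := by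
  rw [← pairSum5_val, ← pairSum_extend hn]
  congr 1
  funext i j
  unfold bn dn t5
  by_cases hi : i.val < 5
  · by_cases hj : j.val < 5
    · simp [hi, hj]
    · simp [hi, hj]
  · simp [hi]

end Vale.Agent.P318
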