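import Vale.Agent.P318.Basic

namespace Vale.Agent.P318

open Finset

variable {n : ℕ}

/-- capacities `1 - lam * b i * b j` off the diagonal. -/
noncomputable def hyperCap (b : Fin n → ℤ) (lam : ℝ) (i j : Fin n) : ℝ :=
  if i = j then 0 else 1 - lam * ((b i : ℝ) * (b j : ℝ))

lemma hyperCap_isCap {b : Fin n → ℤ} (hb : ∀ i, |b i| ≤ 1) {lam : ℝ} (h0 : 0 ≤ lam)
    (h1 : lam ≤ 1) : IsCap (hyperCap b lam) := by
  refine ⟨fun i j => ?_, fun i j => ?_, fun i => by simp [hyperCap]⟩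
  · unfold hyperCap
    by_cases h : i = j
    · subst h; rfl
    · rw [if_neg h, if_neg (Ne.symm h)]; ring
  · unfold hyperCap
    split_ifs
    · exact le_rfl
    · have h2 : |(b i : ℝ) * (b j : ℝ)| ≤ 1 := by
        rw [abs_mul]
        have hi : |(b i : ℝ)| ≤ 1 := by exact_mod_cast hb i
        have hj : |(b j : ℝ)| ≤ 1 := by exact_mod_cast hb j
        calc |(b i : ℝ)| * |(b j : ℝ)| ≤ 1 * 1 :=
              mul_le_mul hi hj (abs_nonneg _) (by norm_num)
          _ = 1 := by norm_num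
      have h3 := (abs_le.1 h2).2
      nlinarith

lemma hyperCap_cut (b : Fin n → ℤ) (lam : ℝ) (S : Finset (Fin n)) :
    ∑ i ∈ S, ∑ j ∈ Sᶜ, hyperCap b lam i j
      = (S.card : ℝ) * (Sᶜ.card : ℝ)
        - lam * ((∑ i ∈ S, (b i : ℝ)) * ∑ j ∈ Sᶜ, (b j : ℝ)) := by
  have h1 : ∑ i ∈ S, ∑ j ∈ Sᶜ, hyperCap b lam i j
      = ∑ i ∈ S, ∑ j ∈ Sᶜ, (1 - lam * ((b i : ℝ) * (b j : ℝ))) := by
    refine Finset.sum_congr rfl fun i hi => Finset.sum_congr rfl fun j hj => ?_
    unfold hyperCap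
    rw [if_neg]
    rintro rfl
    exact (Finset.mem_compl.1 hj) hi
  rw [h1, Finset.sum_mul_sum, Finset.mul_sum]
  simp only [Finset.sum_sub_distrib, Finset.sum_const, Finset.mul_sum, nsmul_eq_mul, mul_one]

lemma int_mul_one_sub_nonpos (s : ℤ) : s * (1 - s) ≤ 0 := by
  rcases le_or_gt s 0 with h | h
  · nlinarith
  · have : 1 ≤ s := h
    nlinarith

lemma one_le_phiVal_hyperCap (hn : 2 ≤ n) {b : Fin n → ℤ} (hsum : ∑ i, b i = 1) {lam : ℝ}
    (h0 : 0 ≤ lam) : 1 ≤ phiVal (hyperCap b lam) := by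
  refine le_phiVal hn fun S h1 h2 => ?_
  unfold cutRatio
  have hS : 0 < (S.card : ℝ) := by exact_mod_cast h1.card_pos
  have hSc : 0 < (Sᶜ.card : ℝ) := by
    have : Sᶜ.Nonempty := by
      rw [Finset.nonempty_iff_ne_empty]
      intro hh
      exact h2 (Finset.compl_eq_empty_iff S |>.1 hh)
    exact_mod_cast this.card_pos
  rw [le_div_iff₀ (by positivity), hyperCap_cut, one_mul]
  have h3 : (∑ j ∈ Sᶜ, b j) = 1 - ∑ i ∈ S, b i := by
    have := Finset.sum_add_sum_compl S b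
    omega
  have h4 : ((∑ i ∈ S, (b i : ℝ)) * ∑ j ∈ Sᶜ, (b j : ℝ)) ≤ 0 := by
    have := int_mul_one_sub_nonpos (∑ i ∈ S, b i)
    rw [← h3] at this
    exact_mod_cast this
  nlinarith

lemma pairSum_hyperCap_mul (b : Fin n → ℤ) (lam : ℝ) (d : Fin n → Fin n → ℝ) :
    pairSum (fun i j => hyperCap b lam i j * d i j)
      = pairSum d - lam * pairSum (fun i j => (b i : ℝ) * (b j : ℝ) * d i j) := by
  rw [← pairSum_smul, ← pairSum_sub]
  unfold pairSum
  refine Finset.sum_congr rfl fun i _ => Finset.sum_congr rfl fun j _ => ?_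
  split_ifs with h
  · show hyperCap b lam i j * d i j = d i j - lam * ((b i : ℝ) * (b j : ℝ) * d i j)
    unfold hyperCap
    rw [if_neg (ne_of_lt h)]; ring
  · rfl

end Vale.Agent.P318
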