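import Vale.Agent.P318.Main

namespace Vale.Agent.P318

open Finset

/-- the capacities `2 K_{2,3}` on five vertices (parts `{0,1}` and `{2,3,4}`). -/
noncomputable def k23 : Fin 5 → Fin 5 → ℝ := hyperCap (bn : Fin 5 → ℤ) 1

lemma k23_isCap : IsCap k23 := hyperCap_isCap bn_abs (by norm_num) le_rfl

lemma bn5_vals : (bn (0 : Fin 5) = -1) ∧ (bn (1 : Fin 5) = -1) ∧ (bn (2 : Fin 5) = 1) ∧
    (bn (3 : Fin 5) = 1) ∧ (bn (4 : Fin 5) = 1) := by decide

lemma negType_ineq {e : Fin 5 → Fin 5 → ℝ} (he : IsNegType e) :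
    9 * e 0 1 + 4 * (e 2 3 + e 2 4 + e 3 4)
      ≤ 6 * (e 0 2 + e 0 3 + e 0 4 + e 1 2 + e 1 3 + e 1 4) := by
  obtain ⟨⟨x, hx⟩, _⟩ := he
  rw [← sub_nonneg]
  have key : 6 * (e 0 2 + e 0 3 + e 0 4 + e 1 2 + e 1 3 + e 1 4)
      - (9 * e 0 1 + 4 * (e 2 3 + e 2 4 + e 3 4))
      = ∑ k, (3 * (x 0).ofLp k + 3 * (x 1).ofLp k - 2 * (x 2).ofLp k - 2 * (x 3).ofLp k
          - 2 * (x 4).ofLp k) ^ 2 := by
    simp only [hx, EuclideanSpace.real_norm_sq_eq, Finset.mul_sum, ← Finset.sum_add_distrib,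
      ← Finset.sum_sub_distrib]
    refine Finset.sum_congr rfl fun k _ => ?_
    simp only [PiLp.sub_apply]
    ring
  rw [key]
  exact Finset.sum_nonneg fun k _ => by positivity

lemma pairSum_k23 (e : Fin 5 → Fin 5 → ℝ) : pairSum (fun i j => k23 i j * e i j)
    = 2 * (e 0 2 + e 0 3 + e 0 4 + e 1 2 + e 1 3 + e 1 4) := by
  obtain ⟨b0, b1, b2, b3, b4⟩ := bn5_vals
  rw [pairSum_five]
  simp [k23, hyperCap, b0, b1, b2, b3, b4]
  ring

lemma nine_tenths_le {e : Fin 5 → Fin 5 → ℝ} (he : IsNegType e) (h1 : pairSum e = 1) :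
    9 / 10 ≤ pairSum (fun i j => k23 i j * e i j) := by
  rw [pairSum_k23]
  rw [pairSum_five] at h1
  have hN := negType_ineq he
  have t1 := he.tri 2 0 3
  have t2 := he.tri 2 0 4
  have t3 := he.tri 3 0 4
  have t4 := he.tri 2 1 3
  have t5 := he.tri 2 1 4
  have t6 := he.tri 3 1 4
  rw [he.symm 2 0] at t1 t2
  rw [he.symm 3 0] at t3
  rw [he.symm 2 1] at t4 t5
  rw [he.symm 3 1] at t6
  linarith

lemma pairSum_dn_five : pairSum (dn : Fin 5 → Fin 5 → ℝ) = 120 := by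
  have h : (∑ k : Fin 5, ∑ l : Fin 5, if k < l then D5 (t5 k) (t5 l) else 0) = 120 := by decide
  have h2 : ((∑ k : Fin 5, ∑ l : Fin 5, if k < l then D5 (t5 k) (t5 l) else 0 : ℤ) : ℝ) = 120 := by
    rw [h]; norm_num
  rw [← h2]
  unfold pairSum dn
  push_cast
  rfl

theorem glVal_k23 : glVal k23 = 9 / 10 := by
  refine le_antisymm ?_ (le_glVal (exists_feasible' (by norm_num)) fun e he h1 =>
    nine_tenths_le he h1)
  have h := glVal_le_div k23_isCap (dn_isNegType (n := 5) le_rfl)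
    (by rw [pairSum_dn_five]; norm_num)
  have h2 : pairSum (fun i j : Fin 5 => k23 i j * dn i j) = 108 := by
    unfold k23
    rw [pairSum_hyperCap_mul, pairSum_bn_dn le_rfl, pairSum_dn_five]
    norm_num
  rw [h2, pairSum_dn_five] at h
  linarith

theorem phiVal_k23 : phiVal k23 = 1 := by
  refine le_antisymm ?_ (one_le_phiVal_hyperCap (by norm_num) (bn_sum le_rfl) (by norm_num))
  have h := phiVal_le_cutRatio k23_isCap (S := {2}) (by simp) (by decide)
  have hc : ({2} : Finset (Fin 5))ᶜ = {0, 1, 3, 4} := by decide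
  obtain ⟨b0, b1, b2, b3, b4⟩ := bn5_vals
  unfold cutRatio at h
  rw [hc] at h
  simp [k23, hyperCap, b0, b1, b2, b3, b4] at h
  unfold k23
  linarith

theorem ten_ninths_le_gap_five : ENNReal.ofReal (10 / 9) ≤ gap 5 := by
  have h := le_gap k23_isCap (by rw [glVal_k23]; norm_num)
  rw [glVal_k23, phiVal_k23] at h
  have : (1 : ℝ) / (9 / 10) = 10 / 9 := by norm_num
  rwa [this] at h

end Vale.Agent.P318
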