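import Vale.Agent.P318.Five

namespace Vale.Agent.P318

open Finset

variable {n : ℕ}

lemma twelve_le_pairSum_dn (hn : 5 ≤ n) : 12 ≤ pairSum (dn : Fin n → Fin n → ℝ) := by
  have h1 := pairSum_hyperCap_mul (bn : Fin n → ℤ) 1 dn
  rw [pairSum_bn_dn hn] at h1
  have hc : IsCap (hyperCap (bn : Fin n → ℤ) 1) := hyperCap_isCap bn_abs (by norm_num) le_rfl
  have h2 : 0 ≤ pairSum (fun i j => hyperCap (bn : Fin n → ℤ) 1 i j * dn i j) :=
    pairSum_nonneg fun i j => mul_nonneg (hc.nonneg i j) ((dn_isNegType hn).nonneg i j)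
  linarith

lemma exists_feasible (hn : 5 ≤ n) : ∃ d : Fin n → Fin n → ℝ, IsNegType d ∧ pairSum d = 1 := by
  have hP := twelve_le_pairSum_dn hn
  refine ⟨fun i j => (pairSum (dn : Fin n → Fin n → ℝ))⁻¹ * dn i j,
    (dn_isNegType hn).smul (by positivity), ?_⟩
  rw [pairSum_smul]
  have : pairSum (dn : Fin n → Fin n → ℝ) ≠ 0 := by linarith
  field_simp

lemma le_gap {c : Fin n → Fin n → ℝ} (hc : IsCap c) (hpos : 0 < glVal c) :
    ENNReal.ofReal (phiVal c / glVal c) ≤ gap n := by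
  unfold gap
  exact le_iSup (fun c : {c : Fin n → Fin n → ℝ // IsCap c ∧ 0 < glVal c} =>
    ENNReal.ofReal (phiVal c.1 / glVal c.1)) ⟨c, hc, hpos⟩

lemma half_le_glVal (hn : 5 ≤ n) : 1 / 2 ≤ glVal (hyperCap (bn : Fin n → ℤ) (1 / 2)) := by
  refine le_glVal (exists_feasible hn) fun e he h1 => ?_
  rw [pairSum_hyperCap_mul, h1]
  have h2 : pairSum (fun i j : Fin n => (bn i : ℝ) * (bn j : ℝ) * e i j) ≤ pairSum e := by
    refine pairSum_le fun i j => ?_
    have h3 : (bn i : ℝ) * (bn j : ℝ) ≤ 1 := by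
      have hi : |(bn i : ℝ)| ≤ 1 := by exact_mod_cast bn_abs i
      have hj : |(bn j : ℝ)| ≤ 1 := by exact_mod_cast bn_abs j
      have : |(bn i : ℝ) * (bn j : ℝ)| ≤ 1 := by
        rw [abs_mul]
        calc |(bn i : ℝ)| * |(bn j : ℝ)| ≤ 1 * 1 :=
              mul_le_mul hi hj (abs_nonneg _) (by norm_num)
          _ = 1 := by norm_num
      exact (abs_le.1 this).2
    have h4 := he.nonneg i j
    nlinarith
  rw [h1] at h2
  linarith

theorem one_lt_gap (hn : 5 ≤ n) : 1 < gap n := by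
  set c := hyperCap (bn : Fin n → ℤ) (1 / 2) with hcdef
  have hc : IsCap c := hyperCap_isCap bn_abs (by norm_num) (by norm_num)
  have hgl : 1 / 2 ≤ glVal c := half_le_glVal hn
  have hpos : 0 < glVal c := by linarith
  have hphi : 1 ≤ phiVal c := one_le_phiVal_hyperCap (by omega) (bn_sum hn) (by norm_num)
  have hP := twelve_le_pairSum_dn hn
  have hPpos : 0 < pairSum (dn : Fin n → Fin n → ℝ) := by linarith
  have hup := glVal_le_div hc (dn_isNegType hn) hPpos
  rw [hcdef, pairSum_hyperCap_mul, pairSum_bn_dn hn, ← hcdef] at hup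
  have hlt : glVal c < 1 := by
    refine lt_of_le_of_lt hup ?_
    rw [div_lt_one hPpos]
    linarith
  refine lt_of_lt_of_le ?_ (le_gap hc hpos)
  rw [← ENNReal.ofReal_one]
  refine (ENNReal.ofReal_lt_ofReal_iff (by positivity)).2 ?_
  rw [lt_div_iff₀ hpos]
  linarith

end Vale.Agent.P318
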