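import Vale.Agent.P318.Small

namespace Vale.Agent.P318

open Finset

variable {n : ℕ}

lemma le_pairSum {f : Fin n → Fin n → ℝ} (h : ∀ i j, 0 ≤ f i j) {i j : Fin n} (hij : i < j) :
    f i j ≤ pairSum f := by
  unfold pairSum
  have h1 : (∑ j', if i < j' then f i j' else 0) ≤ ∑ i', ∑ j', if i' < j' then f i' j' else 0 := by
    refine Finset.single_le_sum (f := fun i' => ∑ j', if i' < j' then f i' j' else 0)
      (fun i' _ => Finset.sum_nonneg fun j' _ => ?_) (Finset.mem_univ i)
    split_ifs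
    · exact h _ _
    · exact le_rfl
  have h2 : (if i < j then f i j else 0) ≤ ∑ j', if i < j' then f i j' else 0 := by
    refine Finset.single_le_sum (f := fun j' => if i < j' then f i j' else 0)
      (fun j' _ => ?_) (Finset.mem_univ j)
    split_ifs
    · exact h _ _
    · exact le_rfl
  rw [if_pos hij] at h2
  exact h2.trans h1

/-- indicator of the vertex `0`. -/
noncomputable def a0 (i : Fin n) : ℝ := if i.val = 0 then 1 else 0

lemma cut0_isNegType (hn : 2 ≤ n) : IsNegType (fun i j : Fin n => (a0 i - a0 j) ^ 2) := by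
  refine isNegType_of_lowdim (m := 1) (by omega) (fun i => WithLp.toLp 2 (fun _ => a0 i))
    (fun i j => ?_) ?_
  · rw [EuclideanSpace.real_norm_sq_eq]
    simp
  · intro i j k
    unfold a0
    split_ifs <;> norm_num

lemma exists_feasible' (hn : 2 ≤ n) : ∃ d : Fin n → Fin n → ℝ, IsNegType d ∧ pairSum d = 1 := by
  have hP : 1 ≤ pairSum (fun i j : Fin n => (a0 i - a0 j) ^ 2) := by
    have := le_pairSum (f := fun i j : Fin n => (a0 i - a0 j) ^ 2) (fun i j => by positivity)
      (i := ⟨0, by omega⟩) (j := ⟨1, by omega⟩) (by simp [Fin.lt_def])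
    simpa [a0] using this
  refine ⟨fun i j => (pairSum (fun i j : Fin n => (a0 i - a0 j) ^ 2))⁻¹ * (a0 i - a0 j) ^ 2,
    (cut0_isNegType hn).smul (by positivity), ?_⟩
  rw [pairSum_smul]
  have : pairSum (fun i j : Fin n => (a0 i - a0 j) ^ 2) ≠ 0 := by linarith
  field_simp

/-- integer indicator of the vertex `0`. -/
def z0 (i : Fin n) : ℤ := if i.val = 0 then 1 else 0

lemma z0_sum (hn : 2 ≤ n) : ∑ i : Fin n, z0 i = 1 := by
  unfold z0
  rw [Finset.sum_eq_single (⟨0, by omega⟩ : Fin n)]
  · simp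
  · intro i _ hi
    rw [if_neg]
    intro h
    exact hi (Fin.ext h)
  · simp

lemma z0_abs (i : Fin n) : |z0 i| ≤ 1 := by
  unfold z0
  split_ifs <;> simp

theorem one_le_gap (hn : 2 ≤ n) : 1 ≤ gap n := by
  set c := hyperCap (z0 : Fin n → ℤ) 0 with hcdef
  have hc : IsCap c := hyperCap_isCap z0_abs le_rfl (by norm_num)
  have hphi : 1 ≤ phiVal c := one_le_phiVal_hyperCap hn (z0_sum hn) le_rfl
  have hgl1 : 1 ≤ glVal c := by
    refine le_glVal (exists_feasible' hn) fun e he h1 => ?_
    rw [hcdef, pairSum_hyperCap_mul, h1]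
    simp
  have hgl2 : glVal c ≤ 1 := by
    obtain ⟨e, he, h1⟩ := exists_feasible' hn
    have := glVal_le hc he h1
    rw [hcdef, pairSum_hyperCap_mul, h1, ← hcdef] at this
    simpa using this
  have hgl : glVal c = 1 := le_antisymm hgl2 hgl1
  refine le_trans ?_ (le_gap hc (by rw [hgl]; norm_num))
  rw [hgl, div_one, ← ENNReal.ofReal_one]
  exact ENNReal.ofReal_le_ofReal hphi

lemma gap_le_one_of (hn : 2 ≤ n)
    (h : ∀ c : Fin n → Fin n → ℝ, IsCap c → ∀ e : Fin n → Fin n → ℝ, IsNegType e →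
      phiVal c * pairSum e ≤ pairSum (fun i j => c i j * e i j)) : gap n ≤ 1 := by
  unfold gap
  refine iSup_le fun c => ?_
  obtain ⟨c, hc, hpos⟩ := c
  rw [← ENNReal.ofReal_one]
  refine ENNReal.ofReal_le_ofReal ?_
  show phiVal c / glVal c ≤ 1
  rw [div_le_one hpos]
  refine le_glVal (exists_feasible' hn) fun e he h1 => ?_
  have := h c hc e he
  rwa [h1, mul_one] at this

theorem gap_eq_one_of_le_four (hn : 2 ≤ n) (h4 : n ≤ 4) : gap n = 1 := by
  refine le_antisymm ?_ (one_le_gap hn)
  have : n = 2 ∨ n = 3 ∨ n = 4 := by omega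
  rcases this with rfl | rfl | rfl
  · exact gap_le_one_of hn fun c hc e he => exact_two hc he
  · exact gap_le_one_of hn fun c hc e he => exact_three hc he
  · exact gap_le_one_of hn fun c hc e he => exact_four hc he

theorem gap_eq_one_iff (hn : 2 ≤ n) : gap n = 1 ↔ n ≤ 4 := by
  constructor
  · intro h
    by_contra hcon
    have := one_lt_gap (n := n) (by omega)
    rw [h] at this
    exact lt_irrefl _ this
  · exact gap_eq_one_of_le_four hn

end Vale.Agent.P318
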