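import Vale.Agent.P318.Lower

namespace Vale.Agent.P318

open Finset

lemma pairSum_five (f : Fin 5 → Fin 5 → ℝ) : pairSum f = f 0 1 + f 0 2 + f 0 3 + f 0 4 + f 1 2
    + f 1 3 + f 1 4 + f 2 3 + f 2 4 + f 3 4 := by
  simp [pairSum, Fin.sum_univ_five]
  ring

lemma pairSum_four (f : Fin 4 → Fin 4 → ℝ) : pairSum f = f 0 1 + f 0 2 + f 0 3 + f 1 2
    + f 1 3 + f 2 3 := by
  simp [pairSum, Fin.sum_univ_four]
  ring

lemma pairSum_three (f : Fin 3 → Fin 3 → ℝ) : pairSum f = f 0 1 + f 0 2 + f 1 2 := by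
  simp [pairSum, Fin.sum_univ_three]

lemma pairSum_two (f : Fin 2 → Fin 2 → ℝ) : pairSum f = f 0 1 := by
  simp [pairSum, Fin.sum_univ_two]

/-- `n = 2`. -/
lemma exact_two {c : Fin 2 → Fin 2 → ℝ} (hc : IsCap c) {e : Fin 2 → Fin 2 → ℝ}
    (he : IsNegType e) : phiVal c * pairSum e ≤ pairSum (fun i j => c i j * e i j) := by
  have h0 := phiVal_mul_le hc (S := {0}) (by simp) (by decide)
  have hc0 : ({0} : Finset (Fin 2))ᶜ = {1} := by decide
  rw [hc0] at h0
  simp at h0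
  rw [pairSum_two, pairSum_two]
  exact mul_le_mul_of_nonneg_right h0 (he.nonneg 0 1)

/-- `n = 3`. -/
lemma exact_three {c : Fin 3 → Fin 3 → ℝ} (hc : IsCap c) {e : Fin 3 → Fin 3 → ℝ}
    (he : IsNegType e) : phiVal c * pairSum e ≤ pairSum (fun i j => c i j * e i j) := by
  have h0 := phiVal_mul_le hc (S := {0}) (by simp) (by decide)
  have h1 := phiVal_mul_le hc (S := {1}) (by simp) (by decide)
  have h2 := phiVal_mul_le hc (S := {2}) (by simp) (by decide)
  have hc0 : ({0} : Finset (Fin 3))ᶜ = {1, 2} := by decide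
  have hc1 : ({1} : Finset (Fin 3))ᶜ = {0, 2} := by decide
  have hc2 : ({2} : Finset (Fin 3))ᶜ = {0, 1} := by decide
  rw [hc0] at h0
  rw [hc1] at h1
  rw [hc2] at h2
  simp at h0 h1 h2
  rw [hc.symm 1 0] at h1
  rw [hc.symm 2 0, hc.symm 2 1] at h2
  rw [pairSum_three, pairSum_three]
  have t0 := he.tri 1 0 2
  have t1 := he.tri 0 1 2
  have t2 := he.tri 0 2 1
  rw [he.symm 1 0] at t0
  rw [he.symm 2 1] at t2
  nlinarith [mul_nonneg (sub_nonneg.2 t0) (sub_nonneg.2 h0),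
    mul_nonneg (sub_nonneg.2 t1) (sub_nonneg.2 h1), mul_nonneg (sub_nonneg.2 t2) (sub_nonneg.2 h2)]

/-- `n = 4`: every semimetric on four points is a nonnegative combination of cut semimetrics. -/
lemma exact_four {c : Fin 4 → Fin 4 → ℝ} (hc : IsCap c) {e : Fin 4 → Fin 4 → ℝ}
    (he : IsNegType e) : phiVal c * pairSum e ≤ pairSum (fun i j => c i j * e i j) := by
  have h0 := phiVal_mul_le hc (S := {0}) (by simp) (by decide)
  have h1 := phiVal_mul_le hc (S := {1}) (by simp) (by decide)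
  have h2 := phiVal_mul_le hc (S := {2}) (by simp) (by decide)
  have h3 := phiVal_mul_le hc (S := {3}) (by simp) (by decide)
  have h01 := phiVal_mul_le hc (S := {0, 1}) (by simp) (by decide)
  have h02 := phiVal_mul_le hc (S := {0, 2}) (by simp) (by decide)
  have h03 := phiVal_mul_le hc (S := {0, 3}) (by simp) (by decide)
  have hc0 : ({0} : Finset (Fin 4))ᶜ = {1, 2, 3} := by decide
  have hc1 : ({1} : Finset (Fin 4))ᶜ = {0, 2, 3} := by decide
  have hc2 : ({2} : Finset (Fin 4))ᶜ = {0, 1, 3} := by decide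
  have hc3 : ({3} : Finset (Fin 4))ᶜ = {0, 1, 2} := by decide
  have hc01 : ({0, 1} : Finset (Fin 4))ᶜ = {2, 3} := by decide
  have hc02 : ({0, 2} : Finset (Fin 4))ᶜ = {1, 3} := by decide
  have hc03 : ({0, 3} : Finset (Fin 4))ᶜ = {1, 2} := by decide
  rw [hc0] at h0
  rw [hc1] at h1
  rw [hc2] at h2
  rw [hc3] at h3
  rw [hc01] at h01
  rw [hc02] at h02
  rw [hc03] at h03
  simp at h0 h1 h2 h3 h01 h02 h03
  rw [hc.symm 1 0] at h1
  rw [hc.symm 2 0, hc.symm 2 1] at h2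
  rw [hc.symm 3 0, hc.symm 3 1, hc.symm 3 2] at h3
  rw [hc.symm 2 1] at h02
  rw [hc.symm 3 1, hc.symm 3 2] at h03
  rw [pairSum_four, pairSum_four]
  set m := max (max (e 0 1 + e 2 3) (e 0 2 + e 1 3)) (e 0 3 + e 1 2) with hm
  have ma : e 0 1 + e 2 3 ≤ m := le_trans (le_max_left _ _) (le_max_left _ _)
  have mb : e 0 2 + e 1 3 ≤ m := le_trans (le_max_right _ _) (le_max_left _ _)
  have mc : e 0 3 + e 1 2 ≤ m := le_max_right _ _
  have s10 := he.symm 1 0
  have s20 := he.symm 2 0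
  have s30 := he.symm 3 0
  have s21 := he.symm 2 1
  have s31 := he.symm 3 1
  have s32 := he.symm 3 2
  have y0 : m ≤ e 0 1 + e 0 2 + e 0 3 := by
    refine max_le (max_le ?_ ?_) ?_
    · have := he.tri 2 0 3; linarith
    · have := he.tri 1 0 3; linarith
    · have := he.tri 1 0 2; linarith
  have y1 : m ≤ e 0 1 + e 1 2 + e 1 3 := by
    refine max_le (max_le ?_ ?_) ?_
    · have := he.tri 2 1 3; linarith
    · have := he.tri 0 1 2; linarith
    · have := he.tri 0 1 3; linarith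
  have y2 : m ≤ e 0 2 + e 1 2 + e 2 3 := by
    refine max_le (max_le ?_ ?_) ?_
    · have := he.tri 0 2 1; linarith
    · have := he.tri 1 2 3; linarith
    · have := he.tri 0 2 3; linarith
  have y3 : m ≤ e 0 3 + e 1 3 + e 2 3 := by
    refine max_le (max_le ?_ ?_) ?_
    · have := he.tri 0 3 1; linarith
    · have := he.tri 0 3 2; linarith
    · have := he.tri 1 3 2; linarith
  nlinarith [mul_nonneg (sub_nonneg.2 y0) (sub_nonneg.2 h0),
    mul_nonneg (sub_nonneg.2 y1) (sub_nonneg.2 h1), mul_nonneg (sub_nonneg.2 y2) (sub_nonneg.2 h2),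
    mul_nonneg (sub_nonneg.2 y3) (sub_nonneg.2 h3), mul_nonneg (sub_nonneg.2 ma) (sub_nonneg.2 h01),
    mul_nonneg (sub_nonneg.2 mb) (sub_nonneg.2 h02), mul_nonneg (sub_nonneg.2 mc) (sub_nonneg.2 h03)]

end Vale.Agent.P318
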